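import Vale.Agent.P219.SB.MPgd
import Vale.Agent.P219.TP.LinAlg
import Vale.Agent.P219.TP.Basic
import Vale.Agent.P219.TP.PerContract

/-!
# P219: the Maurey-Pisier inequality on a Cartan-Hadamard manifold (global form)

`mp_half`: for `h` of class `C¹` with compact support, `0 ≤ h ≤ 1`, every centre `c` and `t > 0`,
`4 p (1 - p) ≤ (t / π) ^ ((n - 1) / 2) ∫ exp (- t r_c²) |dh| dvol + (t / π) ^ (n / 2) vol {0 < h < 1}`
where `p` is the Gaussian mean of `h ∘ exp_c`.
-/

open MeasureTheory Set Metric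
open scoped ENNReal ContDiff

noncomputable section

namespace Vale.Agent.P219.MPG

open Vale.Agent.P219.TP

variable {n : ℕ} (G : Geo n)

/-- Change of variables in the exponential map. -/
theorem lintegral_ex (c : E n) (F : E n → ℝ≥0∞) :
    ∫⁻ v : E n, ENNReal.ofReal |(G.T c v).det| * F (G.ex c v) = ∫⁻ x, F x ∂G.vol := by
  have hinj : Function.Injective (G.ex c) := Function.LeftInverse.injective (G.lg_ex c)
  have hsurj : Function.Surjective (G.ex c) := fun x => ⟨G.lg c x, G.ex_lg c x⟩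
  have h1 := lintegral_image_eq_lintegral_abs_det_fderiv_mul (volume : Measure (E n))
    MeasurableSet.univ (fun v _ => (G.ex_diff c v).hasFDerivAt.hasFDerivWithinAt)
    hinj.injOn (fun x => ENNReal.ofReal (G.w x) * F x)
  rw [image_univ, hsurj.range_eq, Measure.restrict_univ] at h1
  unfold Geo.vol
  rw [lintegral_withDensity_eq_lintegral_mul_non_measurable _
    (G.w_smooth.continuous.measurable.ennreal_ofReal)
    (Filter.Eventually.of_forall fun x => ENNReal.ofReal_lt_top)]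
  simp only [Pi.mul_apply]
  rw [h1]
  refine lintegral_congr fun v => ?_
  rw [← mul_assoc, ← ENNReal.ofReal_mul (abs_nonneg _), mul_comm |_|, G.w_J]

/-- The exponential map increases the volume. -/
theorem lintegral_ex_le (c : E n) (F : E n → ℝ≥0∞) :
    ∫⁻ v : E n, F (G.ex c v) ≤ ∫⁻ x, F x ∂G.vol := by
  rw [← lintegral_ex G c F]
  refine lintegral_mono fun v => ?_
  calc F (G.ex c v) = 1 * F (G.ex c v) := (one_mul _).symm
    _ ≤ _ := mul_le_mul_left (ENNReal.one_le_ofReal.2 (G.one_le_J c v)) _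

/-- The gradient in the exponential chart. -/
theorem norm_fderiv_ex_le {h : E n → ℝ} (hh : ContDiff ℝ 1 h) (c v : E n) :
    ‖fderiv ℝ (fun v => h (G.ex c v)) v‖ ≤ |(G.T c v).det| * ‖G.D h (G.ex c v)‖ := by
  set a := (InnerProductSpace.toDual ℝ (E n)).symm (fderiv ℝ (fun v => h (G.ex c v)) v) with ha
  have hd : HasFDerivAt (fun v => h (G.ex c v))
      ((fderiv ℝ h (G.ex c v)).comp (fderiv ℝ (G.ex c) v)) v :=
    ((hh.differentiable one_ne_zero) (G.ex c v)).hasFDerivAt.comp v (G.ex_diff c v).hasFDerivAt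
  have h1 := det_mul_norm_le (B := ContinuousLinearMap.id ℝ (E n)) (C := G.T c v)
    (N := a) (y := a) (z := G.D h (G.ex c v)) (by
      show LinearMap.det (LinearMap.id : E n →ₗ[ℝ] E n) ≠ 0
      rw [LinearMap.det_id]
      exact one_ne_zero) (G.det_T_ne c v) (fun ξ => G.norm_le_T c v ξ) (fun ξ => rfl) (by
      intro ξ
      rw [G.inner_D, G.T_spec, ha, InnerProductSpace.toDual_symm_apply, hd.fderiv]
      rfl)
  have h2 : |(ContinuousLinearMap.id ℝ (E n)).det| = 1 := by
    show |LinearMap.det (LinearMap.id : E n →ₗ[ℝ] E n)| = 1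
    rw [LinearMap.det_id, abs_one]
  rw [h2, one_mul] at h1
  have h3 : ‖a‖ = ‖fderiv ℝ (fun v => h (G.ex c v)) v‖ := LinearIsometryEquiv.norm_map _ _
  rwa [h3] at h1

theorem contDiff_ex (c : E n) : ContDiff ℝ 1 (G.ex c) :=
  (G.ex_smooth.comp (by fun_prop : ContDiff ℝ ∞ fun v : E n => (c, v))).of_le (by norm_cast)

theorem contDiff_comp_ex {h : E n → ℝ} (hh : ContDiff ℝ 1 h) (c : E n) :
    ContDiff ℝ 1 fun v => h (G.ex c v) := hh.comp (contDiff_ex G c)

/-- **Maurey-Pisier on the manifold**, lower integrals. -/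
theorem mp_geo (hn : 1 ≤ n) {t : ℝ} (ht : 0 < t) {h : E n → ℝ} (hh : ContDiff ℝ 1 h) (c : E n) :
    ∫⁻ v, ∫⁻ w, ‖h (G.ex c v) - h (G.ex c w)‖ₑ ∂(gm n t) ∂(gm n t) ≤
      ENNReal.ofReal (1 / 2 * √(Real.pi / t)) *
        ∫⁻ x, ENNReal.ofReal (gd t (G.lg c x) * ‖G.D h x‖) ∂G.vol := by
  refine (mp_lint hn ht (contDiff_comp_ex G hh c)).trans (mul_le_mul_right ?_ _)
  have hm : Measurable fun v : E n => ‖fderiv ℝ (fun v => h (G.ex c v)) v‖ₑ :=
    ((contDiff_comp_ex G hh c).continuous_fderiv one_ne_zero).measurable.enorm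
  rw [lintegral_gm t hm, ← lintegral_ex G c]
  refine lintegral_mono fun v => ?_
  rw [G.lg_ex, ← ENNReal.ofReal_mul (abs_nonneg _), ← ofReal_norm,
    ← ENNReal.ofReal_mul (gd_nonneg ht v)]
  refine ENNReal.ofReal_le_ofReal ?_
  have h1 := mul_le_mul_of_nonneg_left (norm_fderiv_ex_le G hh c v) (gd_nonneg ht v)
  linarith

/-- Gaussian mean in the exponential chart. -/
def pm (t : ℝ) (h : E n → ℝ) (c : E n) : ℝ := ∫ v, h (G.ex c v) ∂(gm n t)

/-- A function with values in `[0, 1]` on a probability space. -/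
theorem var_le {Ω : Type*} [MeasurableSpace Ω] (μ : Measure Ω) [IsProbabilityMeasure μ]
    {k : Ω → ℝ} (hk : Measurable k) (h0 : ∀ x, 0 ≤ k x) (h1 : ∀ x, k x ≤ 1) :
    2 * ((∫ x, k x ∂μ) * (1 - ∫ x, k x ∂μ) - ∫ x, k x * (1 - k x) ∂μ) ≤
      ∫ z : Ω × Ω, |k z.1 - k z.2| ∂(μ.prod μ) := by
  have hi : Integrable k μ := by
    refine Integrable.of_bound hk.aestronglyMeasurable 1 (Filter.Eventually.of_forall fun x => ?_)
    rw [Real.norm_eq_abs, abs_of_nonneg (h0 x)]
    exact h1 x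
  have hi2 : Integrable (fun x => k x ^ 2) μ := by
    refine Integrable.of_bound (hk.pow_const 2).aestronglyMeasurable 1
      (Filter.Eventually.of_forall fun x => ?_)
    rw [Real.norm_eq_abs, abs_of_nonneg (sq_nonneg _)]
    exact pow_le_one₀ (h0 x) (h1 x)
  have e1 : ∫ z : Ω × Ω, (k z.1 - k z.2) ^ 2 ∂(μ.prod μ) =
      2 * (∫ x, k x ^ 2 ∂μ) - 2 * (∫ x, k x ∂μ) ^ 2 := by
    have a1 : Integrable (fun z : Ω × Ω => k z.1 ^ 2) (μ.prod μ) := hi2.comp_fst μ
    have a2 : Integrable (fun z : Ω × Ω => k z.2 ^ 2) (μ.prod μ) := hi2.comp_snd μ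
    have a3 : Integrable (fun z : Ω × Ω => k z.1 * k z.2) (μ.prod μ) := hi.mul_prod hi
    have e : ∀ z : Ω × Ω, (k z.1 - k z.2) ^ 2 = k z.1 ^ 2 + k z.2 ^ 2 - 2 * (k z.1 * k z.2) :=
      fun z => by ring
    have a12 : Integrable (fun z : Ω × Ω => k z.1 ^ 2 + k z.2 ^ 2) (μ.prod μ) := a1.add a2
    simp only [e]
    rw [integral_sub a12 (a3.const_mul 2), integral_add a1 a2, integral_const_mul,
      integral_prod_mul]
    have b1 : ∫ z : Ω × Ω, k z.1 ^ 2 ∂(μ.prod μ) = ∫ x, k x ^ 2 ∂μ := by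
      have := integral_prod_mul (μ := μ) (ν := μ) (fun x => k x ^ 2) (fun _ => (1 : ℝ))
      simpa using this
    have b2 : ∫ z : Ω × Ω, k z.2 ^ 2 ∂(μ.prod μ) = ∫ x, k x ^ 2 ∂μ := by
      have := integral_prod_mul (μ := μ) (ν := μ) (fun _ => (1 : ℝ)) (fun x => k x ^ 2)
      simpa using this
    rw [b1, b2]
    ring
  have e2 : ∫ x, k x * (1 - k x) ∂μ = (∫ x, k x ∂μ) - ∫ x, k x ^ 2 ∂μ := by
    rw [← integral_sub hi hi2]
    congr 1
    ext x
    ring
  have hm : Measurable fun z : Ω × Ω => k z.1 - k z.2 :=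
    (hk.comp measurable_fst).sub (hk.comp measurable_snd)
  have hb : ∀ z : Ω × Ω, |k z.1 - k z.2| ≤ 1 := fun z => by
    rw [abs_le]
    constructor <;> linarith [h0 z.1, h1 z.1, h0 z.2, h1 z.2]
  have e3 : ∫ z : Ω × Ω, (k z.1 - k z.2) ^ 2 ∂(μ.prod μ) ≤
      ∫ z : Ω × Ω, |k z.1 - k z.2| ∂(μ.prod μ) := by
    refine integral_mono_of_nonneg (Filter.Eventually.of_forall fun z => sq_nonneg _)
      (Integrable.of_bound hm.abs.aestronglyMeasurable 1 (Filter.Eventually.of_forall fun z => ?_))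
      (Filter.Eventually.of_forall fun z => ?_)
    · rw [Real.norm_eq_abs, abs_abs]
      exact hb z
    · simp only
      rw [← sq_abs]
      have := abs_nonneg (k z.1 - k z.2)
      nlinarith [hb z]
  rw [e1] at e3
  rw [e2]
  linarith [e3]

/-- Integrability of the gradient against the Gaussian weight. -/
theorem integrable_gD {o : E n} {ρ : ℝ} {h : E n → ℝ} (hc : G.Cls o ρ h) (c : E n) (t : ℝ) :
    Integrable (fun x => gd t (G.lg c x) * ‖G.D h x‖) G.vol := by
  have hl : Continuous fun x => G.lg c x :=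
    G.lg_smooth.continuous.comp (continuous_const.prodMk continuous_id)
  have h1 : Continuous fun x => gd t (G.lg c x) * ‖G.D h x‖ :=
    ((gd_continuous t).comp hl).mul (perc_D_cont G hc.smooth).norm
  refine h1.integrable_of_hasCompactSupport ?_
  refine HasCompactSupport.intro (G.isCompact_gball o ρ) fun x hx => ?_
  rw [perc_D_of_eventually G (perc_D_zero G hc (not_le.mp hx)), norm_zero, mul_zero]

theorem gd_const {t : ℝ} (ht : 0 < t) :
    1 / 2 * √(Real.pi / t) * (t / Real.pi) ^ ((n : ℝ) / 2) =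
      1 / 2 * (t / Real.pi) ^ (((n : ℝ) - 1) / 2) := by
  have hpi := Real.pi_pos
  have h1 : √(Real.pi / t) = (t / Real.pi) ^ (-(1 / 2) : ℝ) := by
    rw [Real.sqrt_eq_rpow, Real.rpow_neg (by positivity), ← Real.inv_rpow (by positivity), inv_div]
  rw [h1, mul_assoc, ← Real.rpow_add (by positivity)]
  congr 2
  ring

/-- **Density from the mass**, with the exact layer term. -/
theorem mp_pm (hn : 1 ≤ n) {t : ℝ} (ht : 0 < t) {o : E n} {ρ : ℝ} {h : E n → ℝ}
    (hc : G.Cls o ρ h) (c : E n) :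
    4 * (pm G t h c * (1 - pm G t h c) - pm G t (fun x => h x * (1 - h x)) c) ≤
      (t / Real.pi) ^ (((n : ℝ) - 1) / 2) *
        ∫ x, Real.exp (-t * ‖G.lg c x‖ ^ 2) * ‖G.D h x‖ ∂G.vol := by
  have := gm_prob (n := n) ht
  have hpi := Real.pi_pos
  have hk : Continuous fun v => h (G.ex c v) := hc.smooth.continuous.comp (contDiff_ex G c).continuous
  have h1 := var_le (gm n t) hk.measurable (fun v => hc.nonneg _) (fun v => hc.le_one _)
  have hm : Measurable fun z : E n × E n => h (G.ex c z.1) - h (G.ex c z.2) :=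
    (hk.measurable.comp measurable_fst).sub (hk.measurable.comp measurable_snd)
  have hb : ∀ z : E n × E n, |h (G.ex c z.1) - h (G.ex c z.2)| ≤ 1 := fun z => by
    rw [abs_le]
    constructor <;> linarith [hc.nonneg (G.ex c z.1), hc.le_one (G.ex c z.1),
      hc.nonneg (G.ex c z.2), hc.le_one (G.ex c z.2)]
  have h2 : ENNReal.ofReal (∫ z : E n × E n, |h (G.ex c z.1) - h (G.ex c z.2)|
      ∂((gm n t).prod (gm n t))) =
      ∫⁻ v, ∫⁻ w, ‖h (G.ex c v) - h (G.ex c w)‖ₑ ∂(gm n t) ∂(gm n t) := by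
    rw [ofReal_integral_eq_lintegral_ofReal (Integrable.of_bound hm.abs.aestronglyMeasurable 1
      (Filter.Eventually.of_forall fun z => by rw [Real.norm_eq_abs, abs_abs]; exact hb z))
      (Filter.Eventually.of_forall fun z => abs_nonneg _),
      lintegral_prod _ hm.abs.ennreal_ofReal.aemeasurable]
    refine lintegral_congr fun v => lintegral_congr fun w => ?_
    rw [← ofReal_norm, Real.norm_eq_abs]
  have h3 := mp_geo G hn ht hc.smooth c
  rw [← h2, ← ofReal_integral_eq_lintegral_ofReal (integrable_gD G hc c t)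
    (Filter.Eventually.of_forall fun x => mul_nonneg (gd_nonneg ht _) (norm_nonneg _)),
    ← ENNReal.ofReal_mul (by positivity)] at h3
  have hI0 : 0 ≤ ∫ x, gd t (G.lg c x) * ‖G.D h x‖ ∂G.vol :=
    integral_nonneg fun x => mul_nonneg (gd_nonneg ht _) (norm_nonneg _)
  have h4 := (ENNReal.ofReal_le_ofReal_iff (by positivity)).1 h3
  have h5 : 1 / 2 * √(Real.pi / t) * ∫ x, gd t (G.lg c x) * ‖G.D h x‖ ∂G.vol =
      1 / 2 * ((t / Real.pi) ^ (((n : ℝ) - 1) / 2) *
        ∫ x, Real.exp (-t * ‖G.lg c x‖ ^ 2) * ‖G.D h x‖ ∂G.vol) := by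
    have e : ∀ x, gd t (G.lg c x) * ‖G.D h x‖ = (t / Real.pi) ^ ((n : ℝ) / 2) *
        (Real.exp (-t * ‖G.lg c x‖ ^ 2) * ‖G.D h x‖) := fun x => by
      unfold gd
      ring
    simp only [e]
    rw [integral_const_mul, ← mul_assoc, gd_const ht]
    ring
  rw [h5] at h4
  have h6 := h1.trans h4
  unfold pm
  linarith

/-- Gaussian means of nonnegative functions are controlled by the volume integral. -/
theorem pm_le {t : ℝ} (ht : 0 < t) {f : E n → ℝ} (hf : Continuous f) (h0 : ∀ x, 0 ≤ f x)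
    (hi : Integrable f G.vol) (c : E n) :
    pm G t f c ≤ (t / Real.pi) ^ ((n : ℝ) / 2) * ∫ x, f x ∂G.vol := by
  have hpi := Real.pi_pos
  have hk : Continuous fun v => f (G.ex c v) := hf.comp (contDiff_ex G c).continuous
  have hI0 : 0 ≤ ∫ x, f x ∂G.vol := integral_nonneg h0
  have hC0 : 0 ≤ (t / Real.pi) ^ ((n : ℝ) / 2) := by positivity
  unfold pm
  rw [integral_eq_lintegral_of_nonneg_ae (Filter.Eventually.of_forall fun v => h0 _)
    hk.aestronglyMeasurable]
  refine ENNReal.toReal_le_of_le_ofReal (by positivity) ?_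
  rw [lintegral_gm t hk.measurable.ennreal_ofReal, ENNReal.ofReal_mul hC0,
    ofReal_integral_eq_lintegral_ofReal hi (Filter.Eventually.of_forall h0)]
  calc ∫⁻ v, ENNReal.ofReal (gd t v) * ENNReal.ofReal (f (G.ex c v))
      ≤ ∫⁻ v, ENNReal.ofReal ((t / Real.pi) ^ ((n : ℝ) / 2)) * ENNReal.ofReal (f (G.ex c v)) := by
        refine lintegral_mono fun v => mul_le_mul_left (ENNReal.ofReal_le_ofReal ?_) _
        unfold gd
        refine mul_le_of_le_one_right hC0 (Real.exp_le_one_iff.2 ?_)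
        have := sq_nonneg ‖v‖
        nlinarith
    _ = ENNReal.ofReal ((t / Real.pi) ^ ((n : ℝ) / 2)) * ∫⁻ v, ENNReal.ofReal (f (G.ex c v)) :=
        lintegral_const_mul' _ _ ENNReal.ofReal_ne_top
    _ ≤ _ := mul_le_mul_right (lintegral_ex_le G c fun x => ENNReal.ofReal (f x)) _

/-- **Half mass gives density**: the form with the volume of the layer. -/
theorem mp_half (hn : 1 ≤ n) {t : ℝ} (ht : 0 < t) {o : E n} {ρ : ℝ} {h : E n → ℝ}
    (hc : G.Cls o ρ h) (c : E n) :
    4 * (pm G t h c * (1 - pm G t h c)) ≤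
      (t / Real.pi) ^ (((n : ℝ) - 1) / 2) *
        (∫ x, Real.exp (-t * ‖G.lg c x‖ ^ 2) * ‖G.D h x‖ ∂G.vol) +
      (t / Real.pi) ^ ((n : ℝ) / 2) * G.vol.real {x | 0 < h x ∧ h x < 1} := by
  have hpi := Real.pi_pos
  have h1 := mp_pm G hn ht hc c
  have hcont : Continuous fun x => h x * (1 - h x) :=
    hc.smooth.continuous.mul (continuous_const.sub hc.smooth.continuous)
  have h0 : ∀ x, 0 ≤ h x * (1 - h x) := fun x =>
    mul_nonneg (hc.nonneg x) (by linarith [hc.le_one x])
  have hsup : HasCompactSupport fun x => h x * (1 - h x) := by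
    refine HasCompactSupport.intro (G.isCompact_gball o ρ) fun x hx => ?_
    by_contra h2
    exact hx (hc.supp x fun h3 => h2 (by rw [h3, zero_mul]))
  have hi := hcont.integrable_of_hasCompactSupport (μ := G.vol) hsup
  have h2 := pm_le G ht hcont h0 hi c
  have hms : MeasurableSet {x | 0 < h x ∧ h x < 1} :=
    (measurableSet_lt measurable_const hc.smooth.continuous.measurable).inter
      (measurableSet_lt hc.smooth.continuous.measurable measurable_const)
  have hfin : G.vol {x | 0 < h x ∧ h x < 1} < ⊤ :=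
    (measure_mono fun x hx => hc.supp x hx.1.ne').trans_lt (G.isCompact_gball o ρ).measure_lt_top
  have h3 : ∫ x, h x * (1 - h x) ∂G.vol ≤ 1 / 4 * G.vol.real {x | 0 < h x ∧ h x < 1} := by
    have h4 : ∀ x, h x * (1 - h x) ≤ ({x | 0 < h x ∧ h x < 1} : Set (E n)).indicator
        (fun _ => (1 / 4 : ℝ)) x := by
      intro x
      by_cases hx : x ∈ {x | 0 < h x ∧ h x < 1}
      · rw [indicator_of_mem hx]
        nlinarith [sq_nonneg (h x - 1 / 2)]
      · rw [indicator_of_notMem hx]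
        have h5 := hc.nonneg x
        have h6 := hc.le_one x
        rcases h5.lt_or_eq with h7 | h7
        · have h8 : h x = 1 := by
            by_contra h9
            exact hx ⟨h7, lt_of_le_of_ne h6 h9⟩
          rw [h8]
          norm_num
        · rw [← h7]
          norm_num
    calc ∫ x, h x * (1 - h x) ∂G.vol ≤ ∫ x, ({x | 0 < h x ∧ h x < 1} : Set (E n)).indicator
          (fun _ => (1 / 4 : ℝ)) x ∂G.vol :=
          integral_mono hi ((integrable_indicator_iff hms).2
            (integrableOn_const (hs := hfin.ne))) h4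
      _ = _ := by
          rw [integral_indicator hms, setIntegral_const, smul_eq_mul, mul_comm]
  have hC0 : 0 ≤ (t / Real.pi) ^ ((n : ℝ) / 2) := by positivity
  have h4 := mul_le_mul_of_nonneg_left h3 hC0
  linarith

end Vale.Agent.P219.MPG
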